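import Mathlib

/-!
# P194, step (5): separating finitely many elements by one map to a finite p-group

If every nontrivial element of `N` survives in some finite `p`-group quotient, then
finitely many nontrivial elements survive simultaneously in ONE finite `p`-group image
(a finite product of the individual targets).
-/

namespace Vale.Agent.Lib.P194.H72

/-- A product of two `p`-groups is a `p`-group. -/
theorem isPGroup_prod (p : ℕ) {P1 P2 : Type} [Group P1] [Group P2]
    (h1 : IsPGroup p P1) (h2 : IsPGroup p P2) : IsPGroup p (P1 × P2) := by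
  rintro ⟨a, b⟩
  obtain ⟨k, hk⟩ := h1 a
  obtain ⟨l, hl⟩ := h2 b
  refine ⟨k + l, ?_⟩
  rw [Prod.pow_mk, Prod.mk_eq_one]
  constructor
  · rw [pow_add, pow_mul, hk, one_pow]
  · rw [pow_add, mul_comm, pow_mul, hl, one_pow]

/-- Finitely many nontrivial elements of a residually-`p` group are separated from `1`
by one homomorphism to a finite `p`-group. -/
theorem exists_sep (p : ℕ) [Fact p.Prime] (N : Type*) [Group N]
    (hres : ∀ x : N, x ≠ 1 → ∃ (P : Type) (_ : Group P) (_ : Finite P) (f : N →* P),
      IsPGroup p P ∧ f x ≠ 1)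
    (D : Finset N) (hD : ∀ d ∈ D, d ≠ 1) :
    ∃ (P : Type) (_ : Group P) (_ : Finite P) (f : N →* P), IsPGroup p P ∧ ∀ d ∈ D, f d ≠ 1 := by
  classical
  induction D using Finset.induction_on with
  | empty =>
    refine ⟨PUnit, inferInstance, inferInstance, 1, ?_, ?_⟩
    · intro x
      exact ⟨0, Subsingleton.elim _ _⟩
    · intro d hd
      exact absurd hd (Finset.notMem_empty d)
  | insert a s _ ih =>
    obtain ⟨P1, _, _, f1, hP1, hf1⟩ := ih (fun d hd => hD d (Finset.mem_insert_of_mem hd))
    obtain ⟨P2, _, _, f2, hP2, hf2⟩ := hres a (hD a (Finset.mem_insert_self a s))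
    refine ⟨P1 × P2, inferInstance, inferInstance, f1.prod f2, isPGroup_prod p hP1 hP2, ?_⟩
    intro d hd h
    have h' : f1 d = 1 ∧ f2 d = 1 := by
      have := h
      rw [MonoidHom.prod_apply, Prod.mk_eq_one] at this
      exact this
    rcases Finset.mem_insert.mp hd with rfl | hds
    · exact hf2 h'.2
    · exact hf1 d hds h'.1

end Vale.Agent.Lib.P194.H72
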